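import Vale.Agent.P356E.Nrm

namespace Vale.Agent.P356E

open Matrix Vale.Agent.P356 Vale.Agent.P356F Vale.Agent.P356G
open scoped Matrix.Norms.L2Operator

variable {Λ Q : Type} [Fintype Λ] [DecidableEq Λ] [Fintype Q] [DecidableEq Q]

theorem cont_fr_le {n : Type} [Fintype n] [DecidableEq n] {V : Matrix n n ℂ} (hV : V * Vᴴ = 1)
    (f : n → ℝ) {K : ℝ} (hK : 0 ≤ K) (hf : ∀ i, |f i| ≤ K) (w : n → ℂ) :
    nn (fr V f *ᵥ w) ≤ K * nn w := by
  have hV' : Vᴴ * Vᴴᴴ = 1 := by rw [conjTranspose_conjTranspose, uni_symm hV]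
  have e : fr V f *ᵥ w = V *ᵥ (diagonal (fun i => (f i : ℂ)) *ᵥ (Vᴴ *ᵥ w)) := by
    rw [fr, fn, mulVec_mulVec, mulVec_mulVec]
  refine nn_le_of_nsq (mul_nonneg hK (nn_nonneg w)) ?_
  rw [e, nsq_uni hV, mul_pow, nn_sq, ← nsq_uni hV' w, nsq, nsq, Finset.mul_sum]
  refine Finset.sum_le_sum fun i _ => ?_
  rw [mulVec_diagonal, norm_mul, mul_pow, Complex.norm_real, Real.norm_eq_abs]
  exact mul_le_mul_of_nonneg_right (pow_le_pow_left₀ (abs_nonneg _) (hf i) 2) (sq_nonneg _)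

theorem cont_ip_sub {n : Type} [Fintype n] [DecidableEq n] {M : Matrix n n ℂ} (hM : Mᴴ = M) {K : ℝ}
    (hK : ∀ w, nn (M *ᵥ w) ≤ K * nn w) {u v : n → ℂ} (hu : nsq u = 1) (hv : nsq v = 1)
    {θ : ℝ} (hK0 : 0 ≤ K) (h : nn (u - v) ≤ θ) : (ip v M v).re - (ip u M u).re ≤ 2 * θ * K := by
  have e : ip v M v - ip u M u = -(star (u - v) ⬝ᵥ (M *ᵥ u) + star (M *ᵥ v) ⬝ᵥ (u - v)) := by
    have e1 : star (M *ᵥ v) ⬝ᵥ (u - v) = star v ⬝ᵥ (M *ᵥ (u - v)) := by
      rw [dot_mulVec, hM]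
    rw [e1, ip, ip, star_sub, sub_dotProduct, mulVec_sub, dotProduct_sub]
    ring
  have h1 := dot_le (u - v) (M *ᵥ u)
  have h2 := dot_le (M *ᵥ v) (u - v)
  have h3 := hK u
  have h4 := hK v
  rw [nn_unit hu, mul_one] at h3
  rw [nn_unit hv, mul_one] at h4
  have h5 : nn (u - v) * nn (M *ᵥ u) ≤ θ * K :=
    mul_le_mul h h3 (nn_nonneg _) ((nn_nonneg _).trans h)
  have h6 : nn (M *ᵥ v) * nn (u - v) ≤ K * θ := mul_le_mul h4 h (nn_nonneg _) hK0
  have h7 := Complex.re_le_norm (ip v M v - ip u M u)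
  rw [Complex.sub_re] at h7
  rw [e, norm_neg] at h7
  have h8 := norm_add_le (star (u - v) ⬝ᵥ (M *ᵥ u)) (star (M *ᵥ v) ⬝ᵥ (u - v))
  linarith

/-- Klein with `σ = (ρ_v + 1 / d) / 2`: `ent_basis` for `v`, `spec_ofBip`, `Spec.mix` (t = 1/2),
`ent_klein` for `u`, `ent_ip`; `M = - log σ` has eigenvalues in `[0, log 2 + |Y| log q]`,
`qf M u - qf M v ≤ 2 θ ‖M‖`, `- l log ((l + 1/d) / 2) ≤ negMulLog l + l log 2` -/
theorem cont [Nonempty Q] (Y : Finset Λ) {u v : (Λ → Q) → ℂ} (hu : nsq u = 1) (hv : nsq v = 1)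
    {θ : ℝ} (h : nn (u - v) ≤ θ) :
    entropy Y u ≤ entropy Y v + Real.log 2 +
      2 * θ * (Real.log 2 + Y.card * Real.log (Fintype.card Q)) := by
  obtain ⟨V0, l, hV, h1, h2, h3, h4⟩ := ent_basis Y hv
  have hq : (1 : ℝ) ≤ Fintype.card Q := by exact_mod_cast Fintype.card_pos
  have hD : (1 : ℝ) ≤ (Fintype.card Q : ℝ) ^ Y.card := one_le_pow₀ hq
  have hn : (0 : ℝ) < ((Fintype.card Q : ℝ) ^ Y.card)⁻¹ := inv_pos.2 (by linarith)
  have hn1 : ((Fintype.card Q : ℝ) ^ Y.card)⁻¹ ≤ 1 := inv_le_one_of_one_le₀ hD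
  have hl1 : ∀ i, l i ≤ 1 := fun i => by
    rw [← h3]; exact Finset.single_le_sum (fun i _ => h2 i) (Finset.mem_univ _)
  set d : ({x // x ∈ Y} → Q) → ℝ :=
    fun i => (1 - 1 / 2) * l i + 1 / 2 * ((Fintype.card Q : ℝ) ^ Y.card)⁻¹ with hd
  have hpos : ∀ i, 0 < d i := fun i => by have := h2 i; simp only [hd]; positivity
  have hS := (spec_ofBip Y hV l h2 h3).mix (1 / 2) (by norm_num) (by norm_num)
  have hk := ent_klein hu hS fun s => hpos _
  set K := Real.log 2 + Y.card * Real.log (Fintype.card Q) with hKdef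
  have hlog2 : 0 < Real.log 2 := Real.log_pos (by norm_num)
  have hK0 : 0 ≤ K := add_nonneg hlog2.le (mul_nonneg (Nat.cast_nonneg _) (Real.log_nonneg hq))
  have habs : ∀ i, |Real.log (d i)| ≤ K := by
    intro i
    have a1 : d i ≤ 1 := by have := hl1 i; simp only [hd]; linarith
    have a2 : Real.log (d i) ≤ 0 := Real.log_nonpos (hpos i).le a1
    have a3 : Real.log (2⁻¹ * ((Fintype.card Q : ℝ) ^ Y.card)⁻¹) ≤ Real.log (d i) := by
      refine Real.log_le_log (by positivity) ?_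
      have := h2 i; simp only [hd]; linarith
    rw [Real.log_mul (by norm_num) hn.ne', Real.log_inv, Real.log_inv, Real.log_pow] at a3
    rw [abs_of_nonpos a2]
    linarith
  have hsub := cont_ip_sub (fr_ct (lift Y V0) fun s => Real.log (d (res Y s)))
    (cont_fr_le hS.uni _ hK0 fun s => habs _) hu hv hK0 h
  have hvv : -(ip v (fr (lift Y V0) fun s => Real.log (d (res Y s))) v).re ≤ entropy Y v + Real.log 2 := by
    have hδ' : ∑ i, Real.negMulLog (l i) + Real.log 2 = ∑ i, (Real.negMulLog (l i) + Real.log 2 * l i) := by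
      rw [Finset.sum_add_distrib, ← Finset.mul_sum, h3, mul_one]
    rw [h4, ent_ip Y v V0 fun i => Real.log (d i), h1, fr_mul hV,
      ent_trace_fr hV, Complex.ofReal_re, ← Finset.sum_neg_distrib, hδ']
    refine Finset.sum_le_sum fun i _ => ?_
    rcases (h2 i).eq_or_lt with h5 | h5
    · rw [← h5]
      simp
    · have h6 : Real.log (2⁻¹ * l i) ≤ Real.log (d i) := by
        refine Real.log_le_log (by positivity) ?_
        simp only [hd]; linarith
      rw [Real.log_mul (by norm_num) h5.ne', Real.log_inv] at h6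
      have h7 := mul_le_mul_of_nonneg_right h6 h5.le
      rw [Real.negMulLog]
      linarith
  have hk' : entropy Y u ≤ -(ip u (fr (lift Y V0) fun s => Real.log (d (res Y s))) u).re := hk
  linarith

end Vale.Agent.P356E
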